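import Vale.Agent.P074.Third
import Vale.Agent.P074.NotAdmissible

/-!
The sharp stability exponent of quadratic optimal transport maps is one third, and it is attained.
-/

open MeasureTheory
open scoped ENNReal NNReal

open Vale.Agent.P074 in
/-- An exponent is admissible exactly when it is at most one third, so the supremum of the
admissible exponents is one third and it is attained; the exponent one quarter is exact for the
distance of order one. -/
theorem Vale.Agent.Results.P074.SharpExponent.result :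
    ∀ d : ℕ, 2 ≤ d →
      (∀ α : ℝ, 0 < α → (Admissible d α ↔ α ≤ 1 / 3)) ∧
      IsGreatest {α : ℝ | 0 < α ∧ α ≤ 1 ∧ Admissible d α} (1 / 3) ∧
      sSup {α : ℝ | 0 < α ∧ α ≤ 1 ∧ Admissible d α} = 1 / 3 ∧
      ¬ Admissible d (1 / 2) ∧
      (∀ K : Set (Space d), IsCompact K → Convex ℝ K → (interior K).Nonempty →
        ∀ Y : Set (Space d), IsCompact Y → ∃ C : ℝ≥0,
          ∀ μ ν : Measure (Space d), IsProbabilityMeasure μ → IsProbabilityMeasure ν →
            μ Yᶜ = 0 → ν Yᶜ = 0 → ∀ T S : Space d → Space d,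
              IsOptimalMap (uniform K) μ T → IsOptimalMap (uniform K) ν S →
                eLpNorm (fun x => T x - S x) 2 (uniform K) ≤ C * W1 μ ν ^ (1 / 4 : ℝ)) ∧
      (∀ β : ℝ, 1 / 4 < β →
        ∃ K : Set (Space d), IsCompact K ∧ Convex ℝ K ∧ (interior K).Nonempty ∧
          ∃ Y : Set (Space d), IsCompact Y ∧ ∀ C : ℝ≥0,
            ∃ μ ν : Measure (Space d), IsProbabilityMeasure μ ∧ IsProbabilityMeasure ν ∧
              μ Yᶜ = 0 ∧ ν Yᶜ = 0 ∧ ∃ T S : Space d → Space d,
                IsOptimalMap (uniform K) μ T ∧ IsOptimalMap (uniform K) ν S ∧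
                  C * W1 μ ν ^ β < eLpNorm (fun x => T x - S x) 2 (uniform K)) := by
  intro d hd
  obtain ⟨n, rfl⟩ : ∃ n, d = n + 2 := ⟨d - 2, by omega⟩
  have hiff : ∀ α : ℝ, 0 < α → (Admissible (n + 2) α ↔ α ≤ 1 / 3) := fun α hα =>
    ⟨fun h => le_of_not_gt fun h3 => not_admissible n h3 h, fun h3 => admissible_le_third hα h3⟩
  have hgr : IsGreatest {α : ℝ | 0 < α ∧ α ≤ 1 ∧ Admissible (n + 2) α} (1 / 3) :=
    ⟨⟨by norm_num, by norm_num, (hiff _ (by norm_num)).2 le_rfl⟩,
      fun α hα => (hiff α hα.1).1 hα.2.2⟩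
  exact ⟨hiff, hgr, hgr.csSup_eq, not_admissible n (by norm_num),
    fun K hK hKc hne Y hY => stability hK hKc hne hY, fun β hβ => not_W1_bound n hβ⟩
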